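import Vale.Agent.P204.Tame.Linear
import Vale.Agent.P204.Tame.Mfd.Basic

/-!
Pointwise algebra of three skew matrices spanning a definite subspace: the complex structure for
which two of them are anti-invariant and which is tamed by the third.
-/

namespace Vale.Agent.P247

open scoped Matrix
open Vale.Agent.P204 Vale.Agent.P204.Tame

/-- Three skew matrices with every nonzero combination nondegenerate. -/
structure Tri (a b c : M) : Prop where
  sa : aᵀ = -a
  sb : bᵀ = -b
  sc : cᵀ = -c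
  nondeg : ∀ r s t : ℝ, ¬(r = 0 ∧ s = 0 ∧ t = 0) → ∀ v, v ≠ 0 →
    (r • a + s • b + t • c) *ᵥ v ≠ 0

/-- The dual skew matrix. -/
def dual (u : M) : M :=
  skew6 (-u 2 3) (u 1 3) (-u 1 2) (-u 0 3) (u 0 2) (-u 0 1)

theorem dual_mul_add {u v : M} (hu : uᵀ = -u) (hv : vᵀ = -v) :
    dual u * v + dual v * u = (pfq u v) • (1 : M) := by
  rw [eq_skew6 hu, eq_skew6 hv]
  ext i j
  fin_cases i <;> fin_cases j <;>
    simp [dual, skew6, pfq, Matrix.mul_apply, Fin.sum_univ_four] <;> ring

theorem dual_mul_self {u : M} (hu : uᵀ = -u) : dual u * u = (pfq u u / 2) • (1 : M) := by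
  have h := dual_mul_add hu hu
  rw [← two_smul ℝ (dual u * u)] at h
  calc dual u * u = (1 / 2 : ℝ) • ((2 : ℝ) • (dual u * u)) := by module
    _ = _ := by rw [h, smul_smul]; ring_nf

theorem mul_dual_self {u : M} (hu : uᵀ = -u) : u * dual u = (pfq u u / 2) • (1 : M) := by
  rw [eq_skew6 hu]
  ext i j
  fin_cases i <;> fin_cases j <;>
    simp [dual, skew6, pfq, Matrix.mul_apply, Fin.sum_univ_four] <;> ring

/-- A nondegenerate skew matrix has nonzero square. -/
theorem pfq_ne_zero {u : M} (hu : uᵀ = -u) (h : ∀ v, v ≠ 0 → u *ᵥ v ≠ 0) : pfq u u ≠ 0 := by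
  intro h0
  have hd : u * dual u = 0 := by rw [mul_dual_self hu, h0]; simp
  have hcol : ∀ j, (fun i => dual u i j) = (0 : E) := fun j => by
    by_contra hne
    refine h _ hne ?_
    funext i
    exact congrFun (congrFun hd i) j
  have hz : u = 0 := by
    have hs := eq_skew6 hu
    have h1 := congrFun (hcol 1) 0; have h2 := congrFun (hcol 2) 0
    have h3 := congrFun (hcol 3) 0; have h4 := congrFun (hcol 2) 1
    have h5 := congrFun (hcol 3) 1; have h6 := congrFun (hcol 3) 2
    simp [dual, skew6] at h1 h2 h3 h4 h5 h6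
    rw [hs, h1, h2, h3, h4, h5, h6]
    ext i j
    fin_cases i <;> fin_cases j <;> simp [skew6]
  exact h (e 0) (fun he => by simpa [e] using congrFun he 0) (by rw [hz]; simp)

theorem pfq_add_smul (a b : M) (t : ℝ) :
    pfq (a + t • b) (a + t • b) = pfq a a + 2 * t * pfq a b + t ^ 2 * pfq b b := by
  simp [pfq]; ring

theorem pfq_sub_smul_right (u a b : M) (t : ℝ) :
    pfq u (a - t • b) = pfq u a - t * pfq u b := by
  simp [pfq]; ring

variable {a b c : M}

/-- The part of `c` orthogonal to `b`. -/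
noncomputable def orth (b c : M) : M := c - (pfq b c / pfq b b) • b

/-- The ratio of the squares of the orthogonal part and of `b`. -/
noncomputable def ratio (b c : M) : ℝ := pfq (orth b c) (orth b c) / pfq b b

/-- The complex structure of the plane of `b` and `c`, up to sign. -/
noncomputable def planeJ (b c : M) : M := (Real.sqrt (ratio b c))⁻¹ • (b⁻¹ * orth b c)

/-- The complex structure of the plane of `b` and `c` tamed by `a`. -/
noncomputable def triJ (a b c : M) : M :=
  Real.sign (val a (e 0) (planeJ b c *ᵥ e 0)) • planeJ b c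

theorem Tri.pfq_b (h : Tri a b c) : pfq b b ≠ 0 := pfq_ne_zero h.sb fun v hv => by
  simpa using h.nondeg 0 1 0 (by simp) v hv

theorem Tri.pfq_b_orth (h : Tri a b c) : pfq b (orth b c) = 0 := by
  rw [orth, pfq_sub_smul_right, div_mul_cancel₀ _ h.pfq_b, sub_self]

theorem orth_skew (hb : bᵀ = -b) (hc : cᵀ = -c) : (orth b c)ᵀ = -orth b c := by
  simp [orth, hb, hc]; abel

/-- The plane is definite. -/
theorem Tri.ratio_pos (h : Tri a b c) : 0 < ratio b c := by
  have hcomb : ∀ s : ℝ, pfq (orth b c + s • b) (orth b c + s • b) ≠ 0 := fun s => by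
    refine pfq_ne_zero ?_ fun v hv => ?_
    · rw [Matrix.transpose_add, Matrix.transpose_smul, orth_skew h.sb h.sc, h.sb]; module
    · have := h.nondeg 0 (s - pfq b c / pfq b b) 1 (by simp) v hv
      convert this using 2
      simp only [orth]
      module
  unfold ratio
  by_contra hle
  push Not at hle
  refine hcomb (Real.sqrt (-(pfq (orth b c) (orth b c) / pfq b b))) ?_
  rw [pfq_add_smul, pfq_comm (orth b c) b, h.pfq_b_orth, Real.sq_sqrt (by linarith), neg_mul,
    div_mul_cancel₀ _ h.pfq_b]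
  ring

theorem Tri.inv_b (h : Tri a b c) : b⁻¹ = (2 / pfq b b) • dual b := by
  refine Matrix.inv_eq_left_inv ?_
  rw [Matrix.smul_mul, dual_mul_self h.sb, smul_smul,
    show 2 / pfq b b * (pfq b b / 2) = 1 by field_simp [h.pfq_b], one_smul]

theorem Tri.isUnit_b (h : Tri a b c) : IsUnit b.det := by
  refine (Matrix.isUnit_iff_isUnit_det b).1 ?_
  refine IsUnit.of_mul_eq_one_right ((2 / pfq b b) • dual b) ?_
  rw [Matrix.smul_mul, dual_mul_self h.sb, smul_smul,
    show 2 / pfq b b * (pfq b b / 2) = 1 by field_simp [h.pfq_b], one_smul]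

/-- The product before normalisation squares to a negative multiple of the identity. -/
theorem Tri.inv_mul_sq (h : Tri a b c) :
    (b⁻¹ * orth b c) * (b⁻¹ * orth b c) = (-ratio b c) • (1 : M) := by
  have hc := orth_skew h.sb h.sc
  set d := orth b c
  have h0 : dual b * d = -(dual d * b) := by
    have := dual_mul_add h.sb hc
    rw [h.pfq_b_orth, zero_smul] at this
    exact eq_neg_of_add_eq_zero_left this
  have e1 : dual b * d * (dual b * d) = -((pfq b b / 2) • (pfq d d / 2) • (1 : M)) := by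
    calc dual b * d * (dual b * d) = -(dual d * (b * dual b) * d) := by
          conv_lhs => arg 1; rw [h0]
          simp only [Matrix.neg_mul, Matrix.mul_assoc]
      _ = _ := by rw [mul_dual_self h.sb]; simp [dual_mul_self hc]
  rw [h.inv_b, Matrix.smul_mul, Matrix.smul_mul, Matrix.mul_smul, e1]
  simp only [smul_neg, smul_smul, neg_smul, ratio]
  congr 2
  field_simp [h.pfq_b]
  ring

theorem Tri.planeJ_sq (h : Tri a b c) : planeJ b c * planeJ b c = -1 := by
  have hr := h.ratio_pos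
  rw [planeJ, Matrix.smul_mul, Matrix.mul_smul, h.inv_mul_sq, smul_smul, smul_smul,
    show (Real.sqrt (ratio b c))⁻¹ * (Real.sqrt (ratio b c))⁻¹ * -ratio b c = -1 by
      rw [← mul_inv, Real.mul_self_sqrt hr.le]; field_simp]
  simp

theorem Tri.anti_b (h : Tri a b c) : (planeJ b c)ᵀ * b * planeJ b c = -b := by
  have hc := orth_skew h.sb h.sc
  have hu := h.isUnit_b
  have hT : (b⁻¹ * orth b c)ᵀ * b = orth b c := by
    rw [Matrix.transpose_mul, Matrix.transpose_nonsing_inv, h.sb, hc, Matrix.neg_mul,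
      show (-b)⁻¹ = -b⁻¹ from Matrix.inv_eq_left_inv (by
        rw [neg_mul_neg, Matrix.nonsing_inv_mul _ hu])]
    rw [Matrix.mul_neg, neg_neg, Matrix.mul_assoc,
      Matrix.nonsing_inv_mul _ hu, Matrix.mul_one]
  have h1 : (planeJ b c)ᵀ * b = b * planeJ b c := by
    rw [planeJ, Matrix.transpose_smul, Matrix.smul_mul, hT, Matrix.mul_smul, ← Matrix.mul_assoc,
      Matrix.mul_nonsing_inv _ hu, Matrix.one_mul]
  rw [h1, Matrix.mul_assoc, h.planeJ_sq]
  simp

theorem Tri.anti_orth (h : Tri a b c) :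
    (planeJ b c)ᵀ * orth b c * planeJ b c = -orth b c := by
  have hr := h.ratio_pos
  have hd : orth b c = Real.sqrt (ratio b c) • (b * planeJ b c) := by
    rw [planeJ, Matrix.mul_smul, ← Matrix.mul_assoc, Matrix.mul_nonsing_inv _ h.isUnit_b,
      Matrix.one_mul, smul_smul, mul_inv_cancel₀ (Real.sqrt_pos.2 hr).ne', one_smul]
  rw [hd, Matrix.mul_smul, Matrix.smul_mul, ← smul_neg, ← Matrix.mul_assoc, h.anti_b,
    Matrix.neg_mul]

theorem Tri.anti_c (h : Tri a b c) : (planeJ b c)ᵀ * c * planeJ b c = -c := by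
  have h1 := h.anti_orth
  have h2 := h.anti_b
  generalize planeJ b c = j at h1 h2 ⊢
  rw [orth, Matrix.mul_sub, Matrix.sub_mul, Matrix.mul_smul, Matrix.smul_mul, h2, sub_eq_iff_eq_add]
    at h1
  rw [h1]
  module

theorem val_swap' {u : M} (hu : uᵀ = -u) (p q : E) : q ⬝ᵥ (u *ᵥ p) = -(p ⬝ᵥ (u *ᵥ q)) := by
  rw [Matrix.dotProduct_mulVec, ← Matrix.mulVec_transpose, hu, Matrix.neg_mulVec,
    neg_dotProduct, dotProduct_comm]

theorem val_anti_zero {u J : M} (hu : uᵀ = -u) (hJ : J * J = -1) (ha : Jᵀ * u * J = -u) (v : E) :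
    val u v (J *ᵥ v) = 0 := by
  have h1 := val_congr J u v (J *ᵥ v)
  rw [ha, Matrix.mulVec_mulVec, hJ] at h1
  simp only [val, Matrix.neg_mulVec, Matrix.one_mulVec, Matrix.mulVec_neg, dotProduct_neg] at h1
  rw [val_swap' hu v (J *ᵥ v), neg_neg] at h1
  unfold val
  linarith

/-- A triple cannot vanish on a complex line of a structure for which two members are
anti-invariant. -/
theorem Tri.val_ne_zero (h : Tri a b c) {J : M} (hJ : J * J = -1) (hb : Jᵀ * b * J = -b)
    (hc : Jᵀ * c * J = -c) {v : E} (hv : v ≠ 0) : val a v (J *ᵥ v) ≠ 0 := by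
  intro h0
  set w : Fin 5 → E := ![v, J *ᵥ v, a *ᵥ v, b *ᵥ v, c *ᵥ v] with hw
  have hperp : ∀ u : M, uᵀ = -u → val u v (J *ᵥ v) = 0 →
      v ⬝ᵥ (u *ᵥ v) = 0 ∧ (J *ᵥ v) ⬝ᵥ (u *ᵥ v) = 0 := fun u hu hval => by
    refine ⟨by linarith [val_swap' hu v v], ?_⟩
    rw [val_swap' hu v (J *ᵥ v)]
    simp only [val] at hval
    rw [hval, neg_zero]
  obtain ⟨a0, a1⟩ := hperp a h.sa h0
  obtain ⟨b0, b1⟩ := hperp b h.sb (val_anti_zero h.sb hJ hb v)
  obtain ⟨c0, c1⟩ := hperp c h.sc (val_anti_zero h.sc hJ hc v)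
  have hli : LinearIndependent ℝ w := by
    rw [Fintype.linearIndependent_iff]
    intro g hg
    simp only [hw, Fin.sum_univ_five, Matrix.cons_val] at hg
    set p := g 0 • v + g 1 • (J *ᵥ v) with hp
    set q := g 2 • (a *ᵥ v) + g 3 • (b *ᵥ v) + g 4 • (c *ᵥ v) with hq
    have hpq : p + q = 0 := by rw [← hg, hp, hq]; abel
    have hdot : p ⬝ᵥ q = 0 := by
      simp [hp, hq, dotProduct_add, add_dotProduct, a0, a1, b0, b1, c0, c1]
    have hp0 : p = 0 := by
      refine dotProduct_self_eq_zero.1 ?_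
      have h1 : p ⬝ᵥ (p + q) = 0 := by rw [hpq, dotProduct_zero]
      rwa [dotProduct_add, hdot, add_zero] at h1
    have hq0 : q = 0 := by rwa [hp0, zero_add] at hpq
    have h234 : g 2 = 0 ∧ g 3 = 0 ∧ g 4 = 0 := by
      by_contra hne
      refine h.nondeg (g 2) (g 3) (g 4) hne v hv ?_
      rw [Matrix.add_mulVec, Matrix.add_mulVec, Matrix.smul_mulVec, Matrix.smul_mulVec,
        Matrix.smul_mulVec]
      exact hq0
    have h01 : g 0 = 0 ∧ g 1 = 0 := by
      have h1 : g 0 • (J *ᵥ v) - g 1 • v = 0 := by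
        have := congrArg (J *ᵥ ·) hp0
        simp only [hp, Matrix.mulVec_add, Matrix.mulVec_smul, Matrix.mulVec_mulVec, hJ,
          Matrix.mulVec_zero, Matrix.neg_mulVec, Matrix.one_mulVec, smul_neg] at this
        rw [sub_eq_add_neg]
        exact this
      have h2 : (g 0 ^ 2 + g 1 ^ 2) • v = 0 := by
        have e : (g 0 ^ 2 + g 1 ^ 2) • v = g 0 • p - g 1 • (g 0 • (J *ᵥ v) - g 1 • v) := by
          rw [hp]; module
        rw [e, hp0, h1]; simp
      rcases smul_eq_zero.1 h2 with h3 | h3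
      · constructor <;> nlinarith [sq_nonneg (g 0), sq_nonneg (g 1)]
      · exact absurd h3 hv
    intro i
    fin_cases i
    exacts [h01.1, h01.2, h234.1, h234.2.1, h234.2.2]
  have := hli.fintype_card_le_finrank
  simp at this

/-- The value on complex lines has one sign. -/
theorem Tri.sign_eq (h : Tri a b c) {J : M} (hJ : J * J = -1) (hb : Jᵀ * b * J = -b)
    (hc : Jᵀ * c * J = -c) {v w : E} (hv : v ≠ 0) (hw : w ≠ 0) :
    Real.sign (val a v (J *ᵥ v)) = Real.sign (val a w (J *ᵥ w)) := by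
  have hconn : IsPreconnected ({0}ᶜ : Set E) :=
    (isConnected_compl_singleton_of_one_lt_rank (by simp) (0 : E)).isPreconnected
  have hcont : Continuous fun x : E => val a x (J *ᵥ x) := by
    unfold val; fun_prop
  have hne : ∀ x ∈ ({0}ᶜ : Set E), val a x (J *ᵥ x) ≠ 0 := fun x hx =>
    h.val_ne_zero hJ hb hc hx
  have key : ∀ x ∈ ({0}ᶜ : Set E), ∀ y ∈ ({0}ᶜ : Set E),
      val a x (J *ᵥ x) < 0 → 0 < val a y (J *ᵥ y) → False := fun x hx y hy h1 h2 => by
    obtain ⟨z, hz, hz0⟩ := hconn.intermediate_value hx hy hcont.continuousOn ⟨h1.le, h2.le⟩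
    exact hne z hz hz0
  rcases lt_or_gt_of_ne (hne v hv) with hv' | hv' <;>
    rcases lt_or_gt_of_ne (hne w hw) with hw' | hw'
  · rw [Real.sign_of_neg hv', Real.sign_of_neg hw']
  · exact (key v hv w hw hv' hw').elim
  · exact (key w hw v hv hw' hv').elim
  · rw [Real.sign_of_pos hv', Real.sign_of_pos hw']

theorem e_ne_zero (i : Fin 4) : e i ≠ 0 := fun he => by simpa [e] using congrFun he i

theorem Tri.sign_sq (h : Tri a b c) :
    Real.sign (val a (e 0) (planeJ b c *ᵥ e 0)) * Real.sign (val a (e 0) (planeJ b c *ᵥ e 0))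
      = 1 := by
  rcases lt_or_gt_of_ne (h.val_ne_zero h.planeJ_sq h.anti_b h.anti_c (e_ne_zero 0)) with h' | h'
  · rw [Real.sign_of_neg h']; norm_num
  · rw [Real.sign_of_pos h']; norm_num

theorem Tri.triJ_sq (h : Tri a b c) : triJ a b c * triJ a b c = -1 := by
  rw [triJ, Matrix.smul_mul, Matrix.mul_smul, smul_smul, h.sign_sq, one_smul, h.planeJ_sq]

theorem Tri.triJ_anti_b (h : Tri a b c) : (triJ a b c)ᵀ * b * triJ a b c = -b := by
  rw [triJ, Matrix.transpose_smul, Matrix.smul_mul, Matrix.smul_mul, Matrix.mul_smul, smul_smul,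
    h.sign_sq, one_smul, h.anti_b]

theorem Tri.triJ_anti_c (h : Tri a b c) : (triJ a b c)ᵀ * c * triJ a b c = -c := by
  rw [triJ, Matrix.transpose_smul, Matrix.smul_mul, Matrix.smul_mul, Matrix.mul_smul, smul_smul,
    h.sign_sq, one_smul, h.anti_c]

theorem Tri.triJ_tames (h : Tri a b c) {v : E} (hv : v ≠ 0) :
    0 < val a v (triJ a b c *ᵥ v) := by
  have hs := h.sign_eq h.planeJ_sq h.anti_b h.anti_c hv (e_ne_zero 0)
  have hne := h.val_ne_zero h.planeJ_sq h.anti_b h.anti_c hv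
  have hval : val a v (triJ a b c *ᵥ v) =
      Real.sign (val a v (planeJ b c *ᵥ v)) * val a v (planeJ b c *ᵥ v) := by
    rw [hs, triJ, val, val, val, Matrix.smul_mulVec, Matrix.mulVec_smul, dotProduct_smul,
      smul_eq_mul]
  rw [hval]
  exact Real.sign_mul_pos_of_ne_zero _ hne

/-- A compatible form is orthogonal to the anti-invariant members. -/
theorem pfq_eq_zero_of_inv {u J b : M} (hJ : J * J = -1) (hu : uᵀ = -u) (hb : bᵀ = -b)
    (hi : Jᵀ * u * J = u) (ha : Jᵀ * b * J = -b) : pfq u b = 0 :=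
  acs_pfq_inv_anti J u b hJ hu hb hi ha

/-- Two anti-invariant members and a form positive on complex lines give a triple. -/
theorem Tri.of_tames (h : Tri a b c) {J a' : M} (ha' : a'ᵀ = -a') (hJ : J * J = -1)
    (hb : Jᵀ * b * J = -b) (hc : Jᵀ * c * J = -c)
    (hpos : ∀ v, v ≠ 0 → 0 < val a' v (J *ᵥ v)) : Tri a' b c where
  sa := ha'
  sb := h.sb
  sc := h.sc
  nondeg r s t hne v hv hz := by
    rcases eq_or_ne r 0 with rfl | hr
    · refine h.nondeg 0 s t hne v hv ?_
      simpa using hz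
    have h0 : (J *ᵥ v) ⬝ᵥ ((r • a' + s • b + t • c) *ᵥ v) = 0 := by rw [hz, dotProduct_zero]
    have b0 := val_anti_zero h.sb hJ hb v
    have c0 := val_anti_zero h.sc hJ hc v
    simp only [val] at b0 c0
    have hp := hpos v hv
    simp only [val] at hp
    simp only [Matrix.add_mulVec, Matrix.smul_mulVec, dotProduct_add, dotProduct_smul,
      smul_eq_mul, val_swap' ha' v (J *ᵥ v), val_swap' h.sb v (J *ᵥ v),
      val_swap' h.sc v (J *ᵥ v), b0, c0, neg_zero, mul_zero, add_zero] at h0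
    rcases mul_eq_zero.1 h0 with h1 | h1
    · exact hr h1
    · linarith

theorem Tri.swap (h : Tri a b c) : Tri b a c where
  sa := h.sb
  sb := h.sa
  sc := h.sc
  nondeg r s t hne v hv := by
    rw [add_comm (r • b)]
    exact h.nondeg s r t (fun hh => hne ⟨hh.2.1, hh.1, hh.2.2⟩) v hv

theorem Tri.congr (h : Tri a b c) {P : M} (hP : IsUnit P.det) :
    Tri (Pᵀ * a * P) (Pᵀ * b * P) (Pᵀ * c * P) where
  sa := Mfd.skew_congr P h.sa
  sb := Mfd.skew_congr P h.sb
  sc := Mfd.skew_congr P h.sc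
  nondeg r s t hne v hv hz := by
    have hPv : P *ᵥ v ≠ 0 := fun h0 => hv (Matrix.mulVec_injective_iff_isUnit.2
      ((Matrix.isUnit_iff_isUnit_det P).2 hP) (by rw [h0, Matrix.mulVec_zero]))
    refine h.nondeg r s t hne _ hPv ?_
    refine Matrix.mulVec_injective_iff_isUnit.2 ((Matrix.isUnit_iff_isUnit_det Pᵀ).2
      (by rwa [Matrix.det_transpose])) ?_
    rw [Matrix.mulVec_zero, ← hz]
    simp only [Matrix.mulVec_mulVec, Matrix.mul_add, Matrix.add_mul, Matrix.mul_smul,
      Matrix.smul_mul, Matrix.mul_assoc]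

/-- The complex structure is natural. -/
theorem Tri.triJ_congr (h : Tri a b c) {P Q : M} (hPQ : P * Q = 1) :
    triJ (Pᵀ * a * P) (Pᵀ * b * P) (Pᵀ * c * P) = Q * triJ a b c * P := by
  have hP : IsUnit P.det := IsUnit.of_mul_eq_one Q.det (by rw [← Matrix.det_mul, hPQ, Matrix.det_one])
  have hQ : P⁻¹ = Q := Matrix.inv_eq_right_inv hPQ
  have hd := hP.ne_zero
  have hbc : pfq (Pᵀ * b * P) (Pᵀ * c * P) / pfq (Pᵀ * b * P) (Pᵀ * b * P) =
      pfq b c / pfq b b := by
    rw [pfq_congr_skew P h.sb h.sc, pfq_congr_skew P h.sb h.sb, mul_div_mul_left _ _ hd]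
  have ho : orth (Pᵀ * b * P) (Pᵀ * c * P) = Pᵀ * orth b c * P := by
    simp only [orth, hbc, Matrix.mul_sub, Matrix.sub_mul, Matrix.mul_smul, Matrix.smul_mul]
  have hr : ratio (Pᵀ * b * P) (Pᵀ * c * P) = ratio b c := by
    have hs := orth_skew h.sb h.sc
    rw [ratio, ratio, ho, pfq_congr_skew P hs hs, pfq_congr_skew P h.sb h.sb,
      mul_div_mul_left _ _ hd]
  have hp : planeJ (Pᵀ * b * P) (Pᵀ * c * P) = Q * planeJ b c * P := by
    rw [planeJ, planeJ, hr, ho, Matrix.mul_inv_rev, Matrix.mul_inv_rev, hQ, Matrix.mul_smul,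
      Matrix.smul_mul]
    congr 1
    simp only [Matrix.mul_assoc]
    rw [Matrix.nonsing_inv_mul_cancel_left _ _ (by rwa [Matrix.det_transpose])]
  have hPe : P *ᵥ e 0 ≠ 0 := fun h0 => e_ne_zero 0 (Matrix.mulVec_injective_iff_isUnit.2
    ((Matrix.isUnit_iff_isUnit_det P).2 hP) (by rw [h0, Matrix.mulVec_zero]))
  rw [triJ, triJ, hp, Mfd.val_congr_end hPQ,
    h.sign_eq h.planeJ_sq h.anti_b h.anti_c hPe (e_ne_zero 0), Matrix.mul_smul, Matrix.smul_mul]

/-- A form for the complex structure, compatible, replaces the first member. -/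
theorem Tri.segment (h : Tri a b c) {J a' : M} (ha' : a'ᵀ = -a') (hJ : J * J = -1)
    (hb : Jᵀ * b * J = -b) (hc : Jᵀ * c * J = -c)
    (hp : ∀ v, v ≠ 0 → 0 < val a v (J *ᵥ v)) (hp' : ∀ v, v ≠ 0 → 0 < val a' v (J *ᵥ v))
    {s : ℝ} (h0 : 0 ≤ s) (h1 : s ≤ 1) : Tri ((1 - s) • a + s • a') b c := by
  refine h.of_tames ?_ hJ hb hc fun v hv => ?_
  · simp only [Matrix.transpose_add, Matrix.transpose_smul, h.sa, ha']
    module
  · have e1 := hp v hv
    have e2 := hp' v hv
    simp only [val, Matrix.add_mulVec, Matrix.smul_mulVec, dotProduct_add, dotProduct_smul,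
      smul_eq_mul] at e1 e2 ⊢
    rcases h0.eq_or_lt with rfl | hs
    · simpa using e1
    · nlinarith [mul_pos hs e2, mul_nonneg (sub_nonneg.2 h1) e1.le]

end Vale.Agent.P247
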