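import Vale.Agent.P204.Tame.Mfd.ChartStatement

/-!
Hypersymplectic triples on four-manifolds, read in the charts of the smooth atlas.
-/

namespace Vale.Agent.P247

open scoped ContDiff
open Vale.Agent.P204

variable {X : Type} [TopologicalSpace X] [ChartedSpace E X]

/-- The coefficient of the wedge product of two alternating bilinear forms on the four coordinate
vectors. -/
noncomputable def wedgeVal (A B : BilE) : ℝ :=
  bilVal A (e 0) (e 1) * bilVal B (e 2) (e 3) - bilVal A (e 0) (e 2) * bilVal B (e 1) (e 3)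
    + bilVal A (e 0) (e 3) * bilVal B (e 1) (e 2)
    + bilVal B (e 0) (e 1) * bilVal A (e 2) (e 3) - bilVal B (e 0) (e 2) * bilVal A (e 1) (e 3)
    + bilVal B (e 0) (e 3) * bilVal A (e 1) (e 2)

/-- A hypersymplectic triple: three smooth closed two-forms every nonzero combination of which is
nondegenerate at every point. -/
def IsHypersymplectic (w : Fin 3 → X → BilE) : Prop :=
  (∀ i, IsSmoothClosed (w i)) ∧ (∀ i x v, bilVal (w i x) v v = 0) ∧
    ∀ c : Fin 3 → ℝ, c ≠ 0 → ∀ x v, v ≠ 0 → ∃ u, ∑ i, c i * bilVal (w i x) v u ≠ 0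

/-- The triple is pointwise orthogonal for the wedge product. -/
def IsOrthogonal (w : Fin 3 → X → BilE) : Prop :=
  ∀ i j, i ≠ j → ∀ x, wedgeVal (w i x) (w j x) = 0

/-- A family of triples is smooth in the parameter and the point together, in every chart. -/
def IsSmoothPath (W : ℝ → Fin 3 → X → BilE) : Prop :=
  ∀ i, ∀ p : X, ∀ u v : E,
    ContDiffOn ℝ ∞ (fun q : ℝ × E => pullChart (W q.1 i) p u v q.2)
      (Set.univ ×ˢ (chartAt E p).target)

end Vale.Agent.P247
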