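import Vale.Agent.P247.Defs
import Vale.Agent.P247.Alg
import Vale.Agent.P204.Tame.Main

/-!
The complex structure of a hypersymplectic triple as a smooth field, and one step of the
orthogonalisation.
-/

namespace Vale.Agent.P247

open scoped ContDiff Manifold Matrix Topology
open Set Filter
open Vale.Agent.P204 Vale.Agent.P204.Tame Vale.Agent.P204.Tame.Mfd

variable {X : Type} [TopologicalSpace X] [ChartedSpace E X] [IsManifold 𝓘(ℝ, E) ∞ X]

omit [IsManifold 𝓘(ℝ, E) ∞ X] in
/-- Three fields of bilinear forms whose matrices form a triple at every point. -/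
def TriX (A B C : X → BilE) : Prop :=
  ∀ z, Tri (matForm A z) (matForm B z) (matForm C z)

/-- The matrix field of the complex structure. -/
noncomputable def triJX (A B C : X → BilE) (z : X) : M :=
  triJ (matForm A z) (matForm B z) (matForm C z)

/-- The complex structure as a field of endomorphisms. -/
noncomputable def triEnd (A B C : X → BilE) (z : X) : EndE :=
  LinearMap.toContinuousLinearMap (Matrix.mulVecLin (triJX A B C z))

omit [IsManifold 𝓘(ℝ, E) ∞ X] in
lemma endVal_triEnd (A B C : X → BilE) (z : X) (v : E) :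
    endVal (triEnd A B C z) v = triJX A B C z *ᵥ v := by
  simp [endVal, triEnd]

omit [IsManifold 𝓘(ℝ, E) ∞ X] in
lemma matEnd_triEnd (A B C : X → BilE) : matEnd (triEnd A B C) = triJX A B C := by
  funext z
  ext i j
  show endVal (triEnd A B C z) (e j) i = _
  rw [endVal_triEnd]
  simp [Matrix.mulVec, dotProduct, e, Pi.single_apply]

lemma repEnd_triJX {A B C : X → BilE} (h : TriX A B C) {p : X} {y : E}
    (hy : y ∈ (chartAt E p).target) :
    repEnd p (triJX A B C) y =
      triJ (Mfd.rep p (matForm A) y) (Mfd.rep p (matForm B) y) (Mfd.rep p (matForm C) y) := by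
  simp only [repEnd, Mfd.rep, triJX]
  exact ((h _).triJ_congr (chg_mul_chg (mem_chart_source E _) ((chartAt E p).map_target hy))).symm

lemma tri_rep {A B C : X → BilE} (h : TriX A B C) {p : X} {y : E}
    (hy : y ∈ (chartAt E p).target) :
    Tri (Mfd.rep p (matForm A) y) (Mfd.rep p (matForm B) y) (Mfd.rep p (matForm C) y) :=
  (h _).congr (isUnit_chg ((chartAt E p).map_target hy) (mem_chart_source E _))

lemma isSmoothEndField_triEnd {A B C : X → BilE} (hA : IsSymplecticField A)
    (hB : IsSymplecticField B) (hC : IsSymplecticField C) (h : TriX A B C) :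
    IsSmoothEndField (triEnd A B C) := by
  intro p u i
  set t := (chartAt E p).target
  have ha := (isForm_of_chart hA).smooth p
  have hb := (isForm_of_chart hB).smooth p
  have hc := (isForm_of_chart hC).smooth p
  set a := Mfd.rep p (matForm A)
  set b := Mfd.rep p (matForm B)
  set c := Mfd.rep p (matForm C)
  have hbb : ContDiffOn ℝ ∞ (fun y => pfq (b y) (b y)) t := by unfold pfq; fun_prop
  have hbc : ContDiffOn ℝ ∞ (fun y => pfq (b y) (c y) / pfq (b y) (b y)) t :=
    ContDiffOn.div (by unfold pfq; fun_prop) hbb fun y hy => (tri_rep h hy).pfq_b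
  have ho : ∀ k l, ContDiffOn ℝ ∞ (fun y => orth (b y) (c y) k l) t := fun k l => by
    simp only [orth, Matrix.sub_apply, Matrix.smul_apply, smul_eq_mul]
    exact (hc k l).sub (hbc.mul (hb k l))
  have hr : ContDiffOn ℝ ∞ (fun y => ratio (b y) (c y)) t :=
    ContDiffOn.div (by unfold pfq; fun_prop) hbb fun y hy => (tri_rep h hy).pfq_b
  have hs : ContDiffOn ℝ ∞ (fun y => (Real.sqrt (ratio (b y) (c y)))⁻¹) t :=
    (hr.sqrt fun y hy => (tri_rep h hy).ratio_pos.ne').inv fun y hy =>
      (Real.sqrt_pos.2 (tri_rep h hy).ratio_pos).ne'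
  have hd : ∀ k l, ContDiffOn ℝ ∞ (fun y => dual (b y) k l) t := fun k l => by
    fin_cases k <;> fin_cases l <;> simp [dual, skew6] <;>
      first | exact contDiffOn_const | exact hb _ _ | exact (hb _ _).neg
  have hp : ∀ k l, ContDiffOn ℝ ∞ (fun y => planeJ (b y) (c y) k l) t := fun k l => by
    refine ContDiffOn.congr (f := fun y => (Real.sqrt (ratio (b y) (c y)))⁻¹ *
      (2 / pfq (b y) (b y) * ∑ m, dual (b y) k m * orth (b y) (c y) m l))
      (hs.mul ((contDiffOn_const.div hbb fun y hy => (tri_rep h hy).pfq_b).mul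
        (ContDiffOn.sum fun m _ => (hd k m).mul (ho m l)))) fun y hy => ?_
    rw [planeJ, (tri_rep h hy).inv_b, Matrix.smul_mul, Matrix.smul_apply, Matrix.smul_apply,
      Matrix.mul_apply]
    rfl
  set f : E → ℝ := fun y => val (a y) (e 0) (planeJ (b y) (c y) *ᵥ e 0)
  have hf : ContDiffOn ℝ ∞ f t := by
    simp only [f, val, dotProduct, Matrix.mulVec]
    fun_prop
  intro y hy
  have hev : ∀ᶠ x in 𝓝 y, Real.sign (f x) = Real.sign (f y) := by
    have hcy := hf.continuousOn.continuousAt ((chartAt E p).open_target.mem_nhds hy)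
    have hy' := tri_rep h hy
    rcases lt_or_gt_of_ne (hy'.val_ne_zero hy'.planeJ_sq hy'.anti_b hy'.anti_c (e_ne_zero 0)) with
      h0 | h0
    · filter_upwards [hcy.eventually (gt_mem_nhds h0)] with x hx
      rw [Real.sign_of_neg hx, Real.sign_of_neg h0]
    · filter_upwards [hcy.eventually (lt_mem_nhds h0)] with x hx
      rw [Real.sign_of_pos hx, Real.sign_of_pos h0]
  have hg : ContDiffOn ℝ ∞
      (fun x => ∑ l, Real.sign (f y) * planeJ (b x) (c x) i l * u l) t :=
    ContDiffOn.sum fun l _ => (contDiffOn_const.mul (hp i l)).mul contDiffOn_const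
  refine ((hg.contDiffAt ((chartAt E p).open_target.mem_nhds hy)).congr_of_eventuallyEq
    ?_).contDiffWithinAt
  filter_upwards [hev, (chartAt E p).open_target.mem_nhds hy] with x hx hxt
  rw [endChart_eq (triEnd A B C) hxt, matEnd_triEnd, repEnd_triJX h hxt, triJ]
  show ((Real.sign (f x) • planeJ (b x) (c x)) *ᵥ u) i = _
  rw [hx]
  simp [Matrix.mulVec, dotProduct]

/-- One step: a compatible form for the complex structure of the triple. -/
theorem exists_step [T2Space X] [CompactSpace X] [ConnectedSpace X] {A B C : X → BilE}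
    (hA : IsSymplecticField A) (hB : IsSymplecticField B) (hC : IsSymplecticField C)
    (h : TriX A B C) :
    ∃ Ω : X → BilE, IsSymplecticField Ω ∧
      (∀ s : ℝ, 0 ≤ s → s ≤ 1 → TriX (fun x => (1 - s) • A x + s • Ω x) B C) ∧
      ∀ z, pfq (matForm Ω z) (matForm B z) = 0 ∧ pfq (matForm Ω z) (matForm C z) = 0 := by
  obtain ⟨Ω, hΩ, htame, hinv⟩ := donaldsonTamedToCompatible X (triEnd A B C) A
    (isSmoothEndField_triEnd hA hB hC h)
    (fun x v => by
      simp only [endVal_triEnd, Matrix.mulVec_mulVec, triJX, (h x).triJ_sq, Matrix.neg_mulVec,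
        Matrix.one_mulVec])
    hA (fun x v hv => by
      rw [endVal_triEnd, bilVal_mat A]
      exact (h x).triJ_tames hv)
  have hskew := (isForm_of_chart hΩ).skew
  refine ⟨Ω, hΩ, fun s h0 h1 z => ?_, fun z => ?_⟩
  · have e1 : matForm (fun x => (1 - s) • A x + s • Ω x) z =
        (1 - s) • matForm A z + s • matForm Ω z := rfl
    rw [e1]
    refine (h z).segment (hskew z) (h z).triJ_sq (h z).triJ_anti_b (h z).triJ_anti_c
      (fun v hv => (h z).triJ_tames hv) (fun v hv => ?_) h0 h1
    have := htame z v hv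
    rwa [endVal_triEnd, bilVal_mat Ω] at this
  · have hi : (triJ (matForm A z) (matForm B z) (matForm C z))ᵀ * matForm Ω z *
        triJ (matForm A z) (matForm B z) (matForm C z) = matForm Ω z := by
      ext i j
      rw [← val_basis ((triJ (matForm A z) (matForm B z) (matForm C z))ᵀ * matForm Ω z *
        triJ (matForm A z) (matForm B z) (matForm C z)) i j, val_congr, ← val_basis (matForm Ω z) i j]
      have := hinv z (e i) (e j)
      rwa [bilVal_mat Ω, bilVal_mat Ω, endVal_triEnd, endVal_triEnd] at this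
    exact ⟨pfq_eq_zero_of_inv (h z).triJ_sq (hskew z) (h z).sb hi (h z).triJ_anti_b,
      pfq_eq_zero_of_inv (h z).triJ_sq (hskew z) (h z).sc hi (h z).triJ_anti_c⟩

end Vale.Agent.P247
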