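import Vale.Agent.P247.Field

/-!
Every hypersymplectic triple is joined to a pointwise orthogonal one through hypersymplectic
triples, the third member staying fixed.
-/

namespace Vale.Agent.P247

open scoped ContDiff Manifold Matrix
open Set
open Vale.Agent.P204 Vale.Agent.P204.Tame Vale.Agent.P204.Tame.Mfd

variable {X : Type} [TopologicalSpace X] [ChartedSpace E X] [IsManifold 𝓘(ℝ, E) ∞ X]

omit [IsManifold 𝓘(ℝ, E) ∞ X] in
lemma IsHypersymplectic.symplectic {w : Fin 3 → X → BilE} (h : IsHypersymplectic w) (i : Fin 3) :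
    IsSymplecticField (w i) := by
  refine ⟨h.1 i, h.2.1 i, fun x v hv => ?_⟩
  obtain ⟨u, hu⟩ := h.2.2 (Pi.single i 1) (by simp) x v hv
  exact ⟨u, by simpa [Pi.single_apply] using hu⟩

lemma IsHypersymplectic.triX {w : Fin 3 → X → BilE} (h : IsHypersymplectic w) :
    TriX (w 0) (w 1) (w 2) := fun z =>
  { sa := (isForm_of_chart (h.symplectic 0)).skew z
    sb := (isForm_of_chart (h.symplectic 1)).skew z
    sc := (isForm_of_chart (h.symplectic 2)).skew z
    nondeg := fun r s t hne v hv hz => by
      have hs : ∀ i, (matForm (w i) z)ᵀ = -matForm (w i) z := fun i =>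
        (isForm_of_chart (h.symplectic i)).skew z
      obtain ⟨u, hu⟩ := h.2.2 ![r, s, t] (fun hh => hne
        ⟨congrFun hh 0, congrFun hh 1, congrFun hh 2⟩) z v hv
      refine hu ?_
      have hq : u ⬝ᵥ ((r • matForm (w 0) z + s • matForm (w 1) z + t • matForm (w 2) z) *ᵥ v)
          = 0 := by rw [hz, dotProduct_zero]
      simp only [Matrix.add_mulVec, Matrix.smul_mulVec, dotProduct_add, dotProduct_smul,
        smul_eq_mul, val_swap' (hs _) v u] at hq
      simp only [Fin.sum_univ_three, Matrix.cons_val, bilVal_mat (w _)]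
      simp only [val]
      linarith }

omit [IsManifold 𝓘(ℝ, E) ∞ X] in
lemma bilVal_combine (A B : BilE) (r s : ℝ) (u v : E) :
    bilVal (r • A + s • B) u v = r * bilVal A u v + s * bilVal B u v := rfl

omit [IsManifold 𝓘(ℝ, E) ∞ X] in
lemma pullChart_combine (A B : X → BilE) (r s : ℝ) (p : X) (u v y : E) :
    pullChart (fun x => r • A x + s • B x) p u v y =
      r * pullChart A p u v y + s * pullChart B p u v y := rfl

omit [IsManifold 𝓘(ℝ, E) ∞ X] in
lemma isSmoothClosed_combine {A B : X → BilE} (hA : IsSmoothClosed A) (hB : IsSmoothClosed B)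
    (r s : ℝ) : IsSmoothClosed (fun x => r • A x + s • B x) := by
  refine ⟨fun p u v => ((contDiffOn_const.mul (hA.1 p u v)).add
    (contDiffOn_const.mul (hB.1 p u v))), fun p y hy a b c => ?_⟩
  have hd : ∀ {W : X → BilE}, IsSmoothClosed W → ∀ u v,
      DifferentiableAt ℝ (pullChart W p u v) y := fun hW u v =>
    ((hW.1 p u v).contDiffAt ((chartAt E p).open_target.mem_nhds hy)).differentiableAt (by simp)
  have he : ∀ u v z, fderiv ℝ (pullChart (fun x => r • A x + s • B x) p u v) y z =
      r * fderiv ℝ (pullChart A p u v) y z + s * fderiv ℝ (pullChart B p u v) y z := fun u v z => by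
    rw [show pullChart (fun x => r • A x + s • B x) p u v =
      fun y => r * pullChart A p u v y + s * pullChart B p u v y from rfl,
      fderiv_fun_add ((hd hA u v).const_mul r) ((hd hB u v).const_mul s),
      fderiv_const_mul (hd hA u v), fderiv_const_mul (hd hB u v)]
    rfl
  rw [he, he, he]
  linear_combination r * hA.2 p y hy a b c + s * hB.2 p y hy a b c

omit [IsManifold 𝓘(ℝ, E) ∞ X] in
lemma combine_zero (A B : BilE) {s : ℝ} (hs : s = 0) : (1 - s) • A + s • B = A := by
  refine ContinuousLinearMap.ext fun u => ContinuousLinearMap.ext fun v => ?_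
  show (1 - s) * A u v + s * B u v = A u v
  rw [hs]; ring

omit [IsManifold 𝓘(ℝ, E) ∞ X] in
lemma combine_one (A B : BilE) {s : ℝ} (hs : s = 1) : (1 - s) • A + s • B = B := by
  refine ContinuousLinearMap.ext fun u => ContinuousLinearMap.ext fun v => ?_
  show (1 - s) * A u v + s * B u v = B u v
  rw [hs]; ring

/-- The path of triples. -/
noncomputable def path (w : Fin 3 → X → BilE) (A B : X → BilE) (t : ℝ) : Fin 3 → X → BilE :=
  ![fun x => (1 - Real.smoothTransition (2 * t)) • w 0 x + Real.smoothTransition (2 * t) • A x,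
    fun x => (1 - Real.smoothTransition (2 * t - 1)) • w 1 x +
      Real.smoothTransition (2 * t - 1) • B x,
    w 2]

/-- The orthogonalisation. -/
theorem exists_orthogonal_path [T2Space X] [CompactSpace X] [ConnectedSpace X]
    {w : Fin 3 → X → BilE} (hw : IsHypersymplectic w) :
    ∃ W : ℝ → Fin 3 → X → BilE, IsSmoothPath W ∧ W 0 = w ∧ (∀ t, IsHypersymplectic (W t)) ∧
      IsOrthogonal (W 1) ∧ ∀ t, W t 2 = w 2 := by
  have h0 := hw.triX
  obtain ⟨Ω₁, hΩ₁, hseg₁, horth₁⟩ :=
    exists_step (hw.symplectic 0) (hw.symplectic 1) (hw.symplectic 2) h0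
  have h1 : TriX (w 1) Ω₁ (w 2) := fun z => by
    have := hseg₁ 1 zero_le_one le_rfl z
    rw [funext fun x => combine_one (w 0 x) (Ω₁ x) (s := 1) rfl] at this
    exact this.swap
  obtain ⟨Ω₂, hΩ₂, hseg₂, horth₂⟩ := exists_step (hw.symplectic 1) hΩ₁ (hw.symplectic 2) h1
  have hs : ContDiff ℝ ∞ Real.smoothTransition := Real.smoothTransition.contDiff
  refine ⟨path w Ω₁ Ω₂, ?_, ?_, fun t => ?_, ?_, fun t => rfl⟩
  · intro i p u v
    have hW : ∀ {Z : X → BilE}, IsSmoothClosed Z →
        ContDiffOn ℝ ∞ (fun q : ℝ × E => pullChart Z p u v q.2)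
          (univ ×ˢ (chartAt E p).target) := fun hZ =>
      (hZ.1 p u v).comp contDiffOn_snd fun q hq => hq.2
    have hc : ∀ {f : ℝ → ℝ}, ContDiff ℝ ∞ f →
        ContDiffOn ℝ ∞ (fun q : ℝ × E => f q.1) (univ ×ˢ (chartAt E p).target) := fun hf =>
      (hf.comp contDiff_fst).contDiffOn
    have hs1 : ContDiff ℝ ∞ fun t : ℝ => Real.smoothTransition (2 * t) :=
      hs.comp (contDiff_const.mul contDiff_id)
    have hs2 : ContDiff ℝ ∞ fun t : ℝ => Real.smoothTransition (2 * t - 1) :=
      hs.comp ((contDiff_const.mul contDiff_id).sub contDiff_const)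
    fin_cases i
    · exact ((contDiffOn_const.sub (hc hs1)).mul (hW (hw.1 0))).add ((hc hs1).mul (hW hΩ₁.1))
    · exact ((contDiffOn_const.sub (hc hs2)).mul (hW (hw.1 1))).add ((hc hs2).mul (hW hΩ₂.1))
    · exact hW (hw.1 2)
  · funext i
    fin_cases i
    · exact funext fun x => combine_zero _ _ (Real.smoothTransition.zero_of_nonpos (by norm_num))
    · exact funext fun x => combine_zero _ _ (Real.smoothTransition.zero_of_nonpos (by norm_num))
    · rfl
  · have hcl : ∀ i, IsSmoothClosed (path w Ω₁ Ω₂ t i) := fun i => by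
      fin_cases i
      · exact isSmoothClosed_combine (hw.1 0) hΩ₁.1 _ _
      · exact isSmoothClosed_combine (hw.1 1) hΩ₂.1 _ _
      · exact hw.1 2
    have halt : ∀ i x v, bilVal (path w Ω₁ Ω₂ t i x) v v = 0 := fun i x v => by
      fin_cases i
      · exact (bilVal_combine _ _ _ _ v v).trans (by rw [hw.2.1 0 x v, hΩ₁.2.1 x v]; ring)
      · exact (bilVal_combine _ _ _ _ v v).trans (by rw [hw.2.1 1 x v, hΩ₂.2.1 x v]; ring)
      · exact hw.2.1 2 x v
    refine ⟨hcl, halt, fun c hc x v hv => ?_⟩
    have htri : Tri (matForm (path w Ω₁ Ω₂ t 0) x) (matForm (path w Ω₁ Ω₂ t 1) x)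
        (matForm (w 2) x) := by
      rcases le_or_gt (2 * t) 1 with ht | ht
      · have e2 : Real.smoothTransition (2 * t - 1) = 0 :=
          Real.smoothTransition.zero_of_nonpos (by linarith)
        have e : matForm (path w Ω₁ Ω₂ t 1) x = matForm (w 1) x := by
          funext a b
          show bilVal ((1 - Real.smoothTransition (2 * t - 1)) • w 1 x +
            Real.smoothTransition (2 * t - 1) • Ω₂ x) (e a) (e b) = _
          rw [e2, bilVal_combine]
          simp [matForm, formCLM, bilVal]
        rw [e]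
        exact hseg₁ _ (Real.smoothTransition.nonneg _) (Real.smoothTransition.le_one _) x
      · have e1 : Real.smoothTransition (2 * t) = 1 :=
          Real.smoothTransition.one_of_one_le ht.le
        have e : matForm (path w Ω₁ Ω₂ t 0) x = matForm Ω₁ x := by
          funext a b
          show bilVal ((1 - Real.smoothTransition (2 * t)) • w 0 x +
            Real.smoothTransition (2 * t) • Ω₁ x) (e a) (e b) = _
          rw [e1, bilVal_combine]
          simp [matForm, formCLM, bilVal]
        rw [e]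
        exact (hseg₂ _ (Real.smoothTransition.nonneg _) (Real.smoothTransition.le_one _) x).swap
    set L : M := c 0 • matForm (path w Ω₁ Ω₂ t 0) x + c 1 • matForm (path w Ω₁ Ω₂ t 1) x +
      c 2 • matForm (w 2) x
    have hL : L *ᵥ v ≠ 0 := htri.nondeg _ _ _ (fun hh => hc (by
      funext i; fin_cases i <;> simp [hh.1, hh.2.1, hh.2.2])) v hv
    refine ⟨L *ᵥ v, fun h0 => hL ?_⟩
    have hskew : Lᵀ = -L := by
      simp only [L, Matrix.transpose_add, Matrix.transpose_smul, htri.sa, htri.sb, htri.sc]
      module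
    have hsum : ∑ i, c i * bilVal (path w Ω₁ Ω₂ t i x) v (L *ᵥ v) = val L v (L *ᵥ v) := by
      have h2 : path w Ω₁ Ω₂ t 2 = w 2 := rfl
      simp only [Fin.sum_univ_three, bilVal_mat (path w Ω₁ Ω₂ t _), h2]
      simp only [L, val, Matrix.add_mulVec, Matrix.smul_mulVec, dotProduct_add, dotProduct_smul,
        smul_eq_mul]
    rw [hsum, val, val_swap' hskew (L *ᵥ v) v] at h0
    exact dotProduct_self_eq_zero.1 (neg_eq_zero.1 h0)
  · have e0 : path w Ω₁ Ω₂ 1 0 = Ω₁ := by
      exact funext fun x => combine_one _ _ (Real.smoothTransition.one_of_one_le (by norm_num))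
    have e1 : path w Ω₁ Ω₂ 1 1 = Ω₂ := by
      exact funext fun x => combine_one _ _ (Real.smoothTransition.one_of_one_le (by norm_num))
    have e2 : path w Ω₁ Ω₂ 1 2 = w 2 := rfl
    have hwv : ∀ A B : X → BilE, ∀ x, wedgeVal (A x) (B x) = pfq (matForm A x) (matForm B x) :=
      fun A B x => rfl
    intro i j hij x
    have k01 : pfq (matForm Ω₂ x) (matForm Ω₁ x) = 0 := (horth₂ x).1
    have k12 : pfq (matForm Ω₂ x) (matForm (w 2) x) = 0 := (horth₂ x).2
    have k02 : pfq (matForm Ω₁ x) (matForm (w 2) x) = 0 := (horth₁ x).2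
    rw [hwv]
    fin_cases i <;> fin_cases j <;>
      first
        | exact absurd rfl hij
        | simp only [Fin.zero_eta, Fin.mk_one, Fin.reduceFinMk, e0, e1, e2]
          first
            | assumption
            | (rw [pfq_comm]; assumption)

end Vale.Agent.P247
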